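import Vale.Agent.P281.H713.SA.Iface
import Vale.Agent.P299.H223.FSLocal
import Vale.Agent.P272.K.Inv.Chart
import Mathlib.Geometry.Manifold.MFDeriv.Atlas
import Mathlib.Geometry.Manifold.MFDeriv.SpecificFunctions

/-!
# P281, theorem SA, block M

The metric `φ = (1/m) log ∑ |s b|²` on `K_X` defined by finitely many sections generating `m K_X`.
-/

open scoped Manifold ContDiff Topology ComplexOrder
open Set Filter Vale.Agent.P281.J Vale.Agent.P272.K

noncomputable section

namespace Vale.Agent.P281.H949.SA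

open Vale.Agent.P281.H713.SA Vale.Agent.P299.H223

variable {n : ℕ} {X : Type} [TopologicalSpace X] [ChartedSpace (Cm n) X]

/-- the differential of the chart `e` on the standard frame -/
def De (e : Chart n X) (x : X) : Cm n →L[ℂ] Cm n := mfderiv 𝓘(ℂ, Cm n) 𝓘(ℂ, Cm n) e x

/-- the determinant of the differential of the chart `e` on the standard frame -/
def dj (e : Chart n X) (x : X) : ℂ := (De e x).det

/-- determinants of endomorphisms of `ℂⁿ` and matrices -/
lemma det_matrix (A : Cm n →L[ℂ] Cm n) :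
    (Matrix.of fun p i => A (Pi.single i 1) p : Matrix (Fin n) (Fin n) ℂ).det = A.det := by
  have h : (Matrix.of fun p i => A (Pi.single i 1) p : Matrix (Fin n) (Fin n) ℂ) =
      LinearMap.toMatrix' (A : Cm n →ₗ[ℂ] Cm n) := by
    ext p i
    rw [LinearMap.toMatrix'_apply]
    rfl
  rw [h, LinearMap.det_toMatrix']

lemma det_comp (A B : Cm n →L[ℂ] Cm n) : (A.comp B).det = A.det * B.det := by
  show LinearMap.det ((A : Cm n →ₗ[ℂ] Cm n) ∘ₗ (B : Cm n →ₗ[ℂ] Cm n)) = _
  rw [LinearMap.det_comp]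

variable [IsManifold 𝓘(ℂ, Cm n) ω X]

lemma det_jacM {e e' : Chart n X} {x : X} (h : At e x) (h' : At e' x) :
    (jacM e e' x).det = (fderiv ℂ (fun z => e' (e.symm z)) (e x)).det := by
  rw [← det_matrix]
  congr 1
  ext p i
  rw [jacM_eq, jmat_apply (transition_differentiableAt h h')]
  rfl

lemma dj_eq {e e' : Chart n X} {x : X} (h : At e x) (h' : At e' x) :
    dj e' x = (jacM e e' x).det * dj e x := by
  rw [det_jacM h h']
  unfold dj
  rw [← det_comp]
  congr 1
  show (mfderiv 𝓘(ℂ, Cm n) 𝓘(ℂ, Cm n) e' x : Cm n →L[ℂ] Cm n) = _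
  have h1 : mfderiv 𝓘(ℂ, Cm n) 𝓘(ℂ, Cm n) e' x =
      mfderiv 𝓘(ℂ, Cm n) 𝓘(ℂ, Cm n) ((fun z => e' (e.symm z)) ∘ e) x := by
    refine Filter.EventuallyEq.mfderiv_eq ?_
    filter_upwards [e.open_source.mem_nhds h.2] with y hy
    simp only [Function.comp_apply, e.left_inv hy]
  rw [h1]
  have h2 : MDifferentiableAt 𝓘(ℂ, Cm n) 𝓘(ℂ, Cm n) e x :=
    (chart_contMDiffAt h).mdifferentiableAt (by simp)
  have h3 : MDifferentiableAt 𝓘(ℂ, Cm n) 𝓘(ℂ, Cm n) (fun z => e' (e.symm z)) (e x) :=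
    (transition_differentiableAt h h').mdifferentiableAt
  rw [mfderiv_comp x h3 h2, mfderiv_eq_fderiv]
  rfl

lemma dj_ne_zero {e : Chart n X} {x : X} (h : At e x) : dj e x ≠ 0 := by
  have h1 := (mdifferentiable_of_mem_atlas (I := 𝓘(ℂ, Cm n)) (H := Cm n) h.1).symm_comp_deriv h.2
  set A : Cm n →L[ℂ] Cm n := mfderiv 𝓘(ℂ, Cm n) 𝓘(ℂ, Cm n) e.symm (e x) with hA
  have h2 : A.comp (De e x) = ContinuousLinearMap.id ℂ (Cm n) := h1
  have h3 : (ContinuousLinearMap.id ℂ (Cm n)).det = 1 := LinearMap.det_id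
  intro h0
  rw [← h2, det_comp, show (De e x).det = 0 from h0, mul_zero] at h3
  exact zero_ne_one h3

section Sec

variable {m N : ℕ} {s : Fin N → X → ℂ}

/-- the coefficients of the sections `s b` in the chart `e` -/
def coef (m : ℕ) (s : Fin N → X → ℂ) (e : Chart n X) (z : Cm n) (b : Fin N) : ℂ :=
  s b (e.symm z) / dj e (e.symm z) ^ m

/-- the coefficients are holomorphic -/
lemma coef_holo (hs : ∀ b, IsPluri (n := n) m (s b)) {e : Chart n X} {x : X} (h : At e x) :
    ContDiffAt ℂ ω (coef m s e) (e x) := by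
  refine contDiffAt_pi.2 fun b => ?_
  obtain ⟨T, g, a, -, -, ha, hev⟩ := hs b x
  set c : Chart n X := chartAt (Cm n) x with hc
  have hcx : At c x := ⟨chart_mem_atlas _ _, mem_chart_source _ _⟩
  have h1 : ContDiffAt ℂ ω (fun z => a (e.symm z)) (e x) := by
    rw [← contMDiffAt_iff_contDiffAt]
    refine ContMDiffAt.comp (e x) (g := a) ?_ (chart_symm_contMDiffAt h.1 h.mem_target)
    rw [h.left_inv]
    exact ha
  have h2 := h1.mul ((jacM_det_holo h hcx).pow m)
  refine h2.congr_of_eventuallyEq ?_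
  have h3 : ∀ᶠ z in 𝓝 (e x), s b (e.symm z) = a (e.symm z) * dj c (e.symm z) ^ m := by
    have h4 : Tendsto e.symm (𝓝 (e x)) (𝓝 x) := by
      have := e.continuousAt_symm h.mem_target
      rw [ContinuousAt, h.left_inv] at this
      exact this
    filter_upwards [h4.eventually hev] with z hz
    have h6 : ∏ i ∈ T, g i (e.symm z) ^ (0 : Set X → ℕ) i = 1 :=
      Finset.prod_eq_one fun i _ => pow_zero _
    have h5 := hz (by rw [h6]; exact one_ne_zero)
    rw [h6, mul_one] at h5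
    exact h5
  filter_upwards [h3, h.nhds_at hcx] with z hz hz'
  show s b (e.symm z) / dj e (e.symm z) ^ m = _
  rw [hz, dj_eq hz'.2.1 hz'.2.2, div_eq_iff (pow_ne_zero _ (dj_ne_zero hz'.2.1))]
  ring

lemma coef_ne_zero (hb : ∀ x, ∃ b, s b x ≠ 0) {e : Chart n X} {x : X} (h : At e x) :
    coef m s e (e x) ≠ 0 := by
  obtain ⟨b, hb⟩ := hb x
  intro h0
  have h1 := congrFun h0 b
  simp only [coef, h.left_inv, Pi.zero_apply, div_eq_zero_iff] at h1
  rcases h1 with h1 | h1
  · exact hb h1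
  · exact pow_ne_zero m (dj_ne_zero h) h1

lemma coef_change {e e' : Chart n X} {x : X} (h : At e x) (h' : At e' x) :
    coef m s e (e x) = (jacM e e' x).det ^ m • coef m s e' (e' x) := by
  funext b
  simp only [coef, h.left_inv, h'.left_inv, Pi.smul_apply, smul_eq_mul]
  rw [dj_eq h h']
  have h1 := dj_ne_zero h
  have h2 := jacM_det_ne_zero h h'
  rw [mul_pow]
  field_simp

/-- the metric -/
def met (m : ℕ) (s : Fin N → X → ℂ) (e : Chart n X) (z : Cm n) : ℝ :=
  (m : ℝ)⁻¹ * Real.log (nsq (coef m s e z))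

lemma met_canonical (hm : 0 < m) (hs : ∀ b, IsPluri (n := n) m (s b))
    (hb : ∀ x, ∃ b, s b x ≠ 0) : IsCanonicalMetric (met (n := n) m s) where
  smooth e x h := contDiffAt_const.mul (smooth_log_nsq (coef_holo hs h) (coef_ne_zero hb h))
  change e e' x h h' := by
    have h1 := jacM_det_ne_zero h h'
    have h2 : 0 < nsq (coef m s e' (e' x)) := nsq_pos (coef_ne_zero hb h')
    have h3 : (0 : ℝ) < ‖(jacM e e' x).det‖ := norm_pos_iff.2 h1
    simp only [met]
    have h4 : (0 : ℝ) < ‖(jacM e e' x).det ^ m‖ ^ 2 := by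
      rw [norm_pow]; exact pow_pos (pow_pos h3 m) 2
    rw [coef_change h h', nsq_smul, Real.log_mul h4.ne' h2.ne', norm_pow, ← pow_mul,
      mul_comm m 2, pow_mul, Real.log_pow]
    have hm' : (m : ℝ) ≠ 0 := by exact_mod_cast hm.ne'
    field_simp
    ring

lemma cHess_met (hs : ∀ b, IsPluri (n := n) m (s b)) (hb : ∀ x, ∃ b, s b x ≠ 0) {e : Chart n X}
    {x : X} (h : At e x) :
    cHess (met m s e) (e x) = (((m : ℝ)⁻¹ : ℝ) : ℂ) • fsM (coef m s e) (e x) :=
  cHess_const_mul _ ((smooth_log_nsq (coef_holo hs h) (coef_ne_zero hb h)).of_le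
    (by exact WithTop.coe_le_coe.2 le_top))

lemma fsM_psd {F : Cm n → Fin N → ℂ} {z : Cm n} (hF : ContDiffAt ℂ ω F z) (h0 : F z ≠ 0) :
    (fsM F z).PosSemidef := by
  refine Matrix.PosSemidef.of_dotProduct_mulVec_nonneg (fsM_isHermitian hF h0) fun x => ?_
  rw [fsM_quad hF h0 x]
  exact_mod_cast mul_nonneg (inv_nonneg.2 (nsq_nonneg _)) (nsq_nonneg _)

/-- the kernel of the Fubini–Study form -/
lemma fsM_ker {F : Cm n → Fin N → ℂ} {z : Cm n} (hF : ContDiffAt ℂ ω F z) (h0 : F z ≠ 0)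
    (v : Cm n) : (∀ j, ∑ i, v i * fsM F z i j = 0) ↔ ∃ c : ℂ, fderiv ℂ F z v = c • F z := by
  have hH := fsM_isHermitian hF h0
  have h1 : (∀ j, ∑ i, v i * fsM F z i j = 0) ↔ (fsM F z).mulVec (star v) = 0 := by
    rw [funext_iff]
    refine forall_congr' fun j => ?_
    have h2 : (fsM F z).mulVec (star v) j = star (∑ i, v i * fsM F z i j) := by
      rw [star_sum]
      simp only [Matrix.mulVec, dotProduct]
      refine Finset.sum_congr rfl fun i _ => ?_
      rw [star_mul, Pi.star_apply]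
      congr 1
      exact (hH.apply j i).symm
    rw [h2, Pi.zero_apply, star_eq_zero]
  rw [h1, ← (fsM_psd hF h0).dotProduct_mulVec_zero_iff, fsM_quad hF h0 (star v)]
  have h3 : (0 : ℝ) < (nsq (F z))⁻¹ := inv_pos.2 (nsq_pos h0)
  rw [Complex.ofReal_eq_zero, mul_eq_zero, or_iff_right h3.ne', nsq_eq_zero, star_star]
  constructor
  · intro h
    refine ⟨(∑ i, fderiv ℂ F z v i * cj (F z i)) / ((nsq (F z) : ℝ) : ℂ), funext fun i => ?_⟩
    have := congrFun h i
    simp only [Pi.zero_apply, sub_eq_zero] at this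
    exact this
  · rintro ⟨c, hc⟩
    funext i
    have h4 : (∑ i, fderiv ℂ F z v i * cj (F z i)) = c * ((nsq (F z) : ℝ) : ℂ) := by
      rw [nsq_cast, Finset.mul_sum]
      refine Finset.sum_congr rfl fun i _ => ?_
      rw [hc, Pi.smul_apply, smul_eq_mul, mul_assoc]
    have h5 : ((nsq (F z) : ℝ) : ℂ) ≠ 0 := by exact_mod_cast (nsq_pos h0).ne'
    simp only [Pi.zero_apply]
    rw [h4, mul_div_cancel_right₀ _ h5, hc, Pi.smul_apply, smul_eq_mul, sub_self]

/-- the quotients of the homogeneous coordinates -/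
lemma fderiv_quot {F : Cm n → Fin N → ℂ} {z : Cm n} (hF : ContDiffAt ℂ ω F z) {b₀ : Fin N}
    (h0 : F z b₀ ≠ 0) (v : Cm n) : (∃ c : ℂ, fderiv ℂ F z v = c • F z) ↔
      ∀ b, fderiv ℂ (fun y => F y b / F y b₀) z v = 0 := by
  have hd : ∀ b, DifferentiableAt ℂ (fun y => F y b) z := fun b =>
    (comp_cd hF b).differentiableAt (by simp)
  have hv : ∀ b, fderiv ℂ (fun y => F y b) z v = fderiv ℂ F z v b := by
    intro b
    rw [fderiv_apply (hF.differentiableAt (by simp)) b]
    rfl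
  have hq : ∀ b, fderiv ℂ (fun y => F y b / F y b₀) z v =
      (fderiv ℂ F z v b * F z b₀ - F z b * fderiv ℂ F z v b₀) / F z b₀ ^ 2 := by
    intro b
    have h1 : DifferentiableAt ℂ (fun y => F y b / F y b₀) z :=
      ((comp_cd hF b).div (comp_cd hF b₀) h0).differentiableAt (by simp)
    have h2 : (fun y => F y b) =ᶠ[𝓝 z] fun y => (F y b / F y b₀) * F y b₀ := by
      filter_upwards [(comp_cd hF b₀).continuousAt.eventually_ne h0] with y hy
      rw [div_mul_cancel₀ _ hy]
    have h3 : fderiv ℂ (fun y => F y b) z v =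
      fderiv ℂ (fun y => (F y b / F y b₀) * F y b₀) z v := by rw [h2.fderiv_eq]
    rw [fderiv_fun_mul h1 (hd b₀), add_apply, smul_apply, smul_apply, hv, hv, smul_eq_mul,
      smul_eq_mul] at h3
    rw [h3]
    field_simp
    ring
  constructor
  · rintro ⟨c, hc⟩ b
    rw [hq b, hc]
    simp only [Pi.smul_apply, smul_eq_mul]
    rw [show c * F z b * F z b₀ - F z b * (c * F z b₀) = 0 by ring, zero_div]
  · intro h
    refine ⟨fderiv ℂ F z v b₀ / F z b₀, funext fun b => ?_⟩
    have h1 := h b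
    rw [hq b, div_eq_zero_iff, or_iff_left (pow_ne_zero 2 h0), sub_eq_zero] at h1
    rw [Pi.smul_apply, smul_eq_mul, div_mul_eq_mul_div, eq_div_iff h0, h1]
    ring

end Sec

/-- **Block M.** -/
theorem metricPart : MetricPart := by
  intro n X _ _ _ m N hm s hs hb
  refine ⟨met m s, met_canonical hm hs hb, fun e x h => ?_, fun e x h b₀ hb₀ v => ?_⟩
  · rw [cHess_met hs hb h]
    exact (fsM_psd (coef_holo hs h) (coef_ne_zero hb h)).smul
      (by exact_mod_cast inv_nonneg.2 (Nat.cast_nonneg m))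
  · have hF := coef_holo hs h
    have hF0 := coef_ne_zero (m := m) hb h
    rw [cHess_met hs hb h]
    have hm' : ((((m : ℝ)⁻¹ : ℝ) : ℂ)) ≠ 0 := by
      have : (m : ℝ) ≠ 0 := by exact_mod_cast hm.ne'
      exact_mod_cast inv_ne_zero this
    have h1 : (∀ j, ∑ i, v i * ((((m : ℝ)⁻¹ : ℝ) : ℂ) • fsM (coef m s e) (e x)) i j = 0) ↔
        ∀ j, ∑ i, v i * fsM (coef m s e) (e x) i j = 0 := by
      refine forall_congr' fun j => ?_
      have h2 : ∑ i, v i * ((((m : ℝ)⁻¹ : ℝ) : ℂ) • fsM (coef m s e) (e x)) i j =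
          (((m : ℝ)⁻¹ : ℝ) : ℂ) * ∑ i, v i * fsM (coef m s e) (e x) i j := by
        rw [Finset.mul_sum]
        refine Finset.sum_congr rfl fun i _ => ?_
        rw [Matrix.smul_apply, smul_eq_mul]
        ring
      rw [h2, mul_eq_zero, or_iff_right hm']
    have hb0 : coef m s e (e x) b₀ ≠ 0 := by
      simp only [coef, h.left_inv]
      exact div_ne_zero hb₀ (pow_ne_zero _ (dj_ne_zero h))
    rw [h1, fsM_ker hF hF0, fderiv_quot hF hb0]
    refine forall_congr' fun b => ?_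
    have h3 : (fun y => coef m s e y b / coef m s e y b₀) =ᶠ[𝓝 (e x)]
        fun z => s b (e.symm z) / s b₀ (e.symm z) := by
      filter_upwards [h.nhds_at h] with z hz
      simp only [coef]
      exact div_div_div_cancel_right₀ (pow_ne_zero _ (dj_ne_zero hz.2.1)) _ _
    rw [h3.fderiv_eq]

end Vale.Agent.P281.H949.SA
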